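import Vale.Agent.P159.TM.H682.E3
import Vale.Agent.P159.TM.H708.Pd
import Vale.Agent.P159.T1.H934.Markov

/-!
Row E3 for Bessel weights, masses, zero pins and zero boundary values: no hypothesis is left.
-/

open Finset MeasureTheory
open scoped ENNReal

set_option linter.unusedSectionVars false
set_option linter.unusedDecidableInType false

namespace Vale.Agent.P159.TM.H682

open Vale.Agent.P159.TM.H60 Vale.Agent.P159.TM.H131 Vale.Agent.P159.H353
  Vale.Agent.P159.T1.H934 Vale.Agent.P159.TM.H708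

variable {V E E' : Type} [Fintype V] [DecidableEq V] [Fintype E] [DecidableEq E] [Fintype E']

theorem li_eq_lf (g : V → ℝ) (h : V → ℤ) : li g h = lf g h := rfl

theorem iX_union (X Y : Set V) (h : V → ℤ) : iX (X ∪ Y) h = iX X h * iX Y h := by
  classical
  unfold iX
  by_cases h1 : ∀ x ∈ X, h x = 0
  · by_cases h2 : ∀ x ∈ Y, h x = 0
    · rw [if_pos h1, if_pos h2, if_pos, one_mul]
      rintro x (hx | hx)
      · exact h1 x hx
      · exact h2 x hx
    · rw [if_pos h1, if_neg h2, if_neg, mul_zero]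
      intro h3
      exact h2 fun x hx => h3 x (Or.inr hx)
  · rw [if_neg h1, zero_mul, if_neg]
    intro h3
    exact h1 fun x hx => h3 x (Or.inl hx)

theorem bw_union (D : (V → ℤ) →+ (E' → ℤ)) (J : E' → ℝ) (m : V → ℝ) (X Y : Set V)
    (h : V → ℤ) : bw D J m (X ∪ Y) h = bw D J m X h * iX Y h := by
  unfold bw
  rw [iX_union]
  ring

/-- second moments: couplings lowered, vertices pinned to zero -/
theorem mono_two (D : (V → ℤ) →+ (E' → ℤ)) {J' J : E' → ℝ} (hJ' : ∀ e, 0 ≤ J' e)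
    (hJJ : ∀ e, J' e ≤ J e) {m : V → ℝ} (hm : ∀ x, 0 < m x) (X : Set V) {A K : Set V}
    (hAK : A ⊆ K) {F : (V → ℤ) → ℝ} (hF : Inc F) (hF0 : ∀ h, 0 ≤ F h) :
    SS D J' m (X ∪ K) F ≤ SS D J m (X ∪ A) F / SS D J m (X ∪ A) (fun _ => 1) *
      SS D J' m (X ∪ K) fun _ => 1 := by
  have hJ : ∀ e, 0 ≤ J e := fun e => (hJ' e).trans (hJJ e)
  have h1 := mono_J D hJ' (K := fun e => J e - J' e) (fun e => sub_nonneg.2 (hJJ e)) hm
    (X ∪ K) hF
  have e0 : J' + (fun e => J e - J' e) = J := by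
    funext e
    simp
  rw [e0] at h1
  have h2 := mono_pd D hJ hm (X ∪ A) hF (PD.iX (V := V) K)
  have hu : X ∪ A ∪ K = X ∪ K := by
    rw [Set.union_assoc, Set.union_eq_self_of_subset_left hAK]
  have e1 : SS D J m (X ∪ A) (fun h => F h * iX K h) = SS D J m (X ∪ K) F := by
    unfold SS
    refine tsum_congr fun h => ?_
    rw [← hu, bw_union D J m (X ∪ A) K]
    ring
  have e2 : SS D J m (X ∪ A) (iX K) = SS D J m (X ∪ K) fun _ => 1 := by
    unfold SS
    refine tsum_congr fun h => ?_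
    rw [← hu, bw_union D J m (X ∪ A) K]
    ring
  rw [e1, e2] at h2
  have pJ := SS_one_pos D hJ hm (X ∪ K)
  have pA := SS_one_pos D hJ hm (X ∪ A)
  have p' := SS_one_pos D hJ' hm (X ∪ K)
  have n1 : 0 ≤ SS D J' m (X ∪ K) F := tsum_nonneg fun h => mul_nonneg (bw_nonneg hJ' h) (hF0 h)
  rw [div_mul_eq_mul_div, le_div_iff₀ pA]
  -- multiply by the partition function at `J`, `K`
  have h3 : (SS D J' m (X ∪ K) F * SS D J m (X ∪ A) fun _ => 1) *
      (SS D J m (X ∪ K) fun _ => 1) ≤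
      (SS D J m (X ∪ A) F * SS D J' m (X ∪ K) fun _ => 1) * (SS D J m (X ∪ K) fun _ => 1) := by
    calc (SS D J' m (X ∪ K) F * SS D J m (X ∪ A) fun _ => 1) * (SS D J m (X ∪ K) fun _ => 1)
        = (SS D J' m (X ∪ K) F * SS D J m (X ∪ K) fun _ => 1) *
            (SS D J m (X ∪ A) fun _ => 1) := by ring
      _ ≤ (SS D J m (X ∪ K) F * SS D J' m (X ∪ K) fun _ => 1) *
            (SS D J m (X ∪ A) fun _ => 1) := mul_le_mul_of_nonneg_right h1 pA.le
      _ = (SS D J m (X ∪ K) F * SS D J m (X ∪ A) fun _ => 1) *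
            (SS D J' m (X ∪ K) fun _ => 1) := by ring
      _ ≤ (SS D J m (X ∪ A) F * SS D J m (X ∪ K) fun _ => 1) *
            (SS D J' m (X ∪ K) fun _ => 1) := mul_le_mul_of_nonneg_right h2 p'.le
      _ = _ := by ring
  exact le_of_mul_le_mul_right h3 pJ

theorem tsum_ofReal_bw {D : (V → ℤ) →+ (E' → ℤ)} {J : E' → ℝ} (hJ : ∀ e, 0 ≤ J e)
    {m : V → ℝ} (hm : ∀ x, 0 < m x) (X : Set V) {F : (V → ℤ) → ℝ} (hF : H708.Gr F)
    (hF0 : ∀ h, 0 ≤ F h) :
    ∑' h, ENNReal.ofReal (bw D J m X h * F h) = ENNReal.ofReal (SS D J m X F) := by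
  unfold SS
  rw [ENNReal.ofReal_tsum_of_nonneg (fun h => mul_nonneg (bw_nonneg hJ h) (hF0 h))
    (bw_summable hJ hm hF).of_abs]

/-- **MONO in the form used for E3.** -/
theorem monoR_gen {s t : E → V} {a : V → ℤ → ℝ} {J : E → ℝ} (D : (V → ℤ) →+ (E' → ℤ))
    {φ : (E → ℝ) → E' → ℝ} {m : V → ℝ} (hm : ∀ x, 0 < m x) (X : Set V)
    (hφ0 : ∀ J' : E → ℝ, (∀ e, 0 ≤ J' e) → ∀ e, 0 ≤ φ J' e)
    (hφm : ∀ J' : E → ℝ, (∀ e, J' e ≤ J e) → ∀ e, φ J' e ≤ φ J e)
    (hW : ∀ J' : E → ℝ, ∀ h, Wm s t a J' h = bw D (φ J') m X h) (A : Finset V)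
    (g : V → ℝ) :
    MonoR s t a J A g (ENNReal.ofReal (SS D (φ J) m (X ∪ (A : Set V)) (fun h => (lf g h) ^ 2) /
      SS D (φ J) m (X ∪ (A : Set V)) (fun _ => 1))) := by
  classical
  intro K hK J' hJ' hJJ
  have key : ∀ F : (V → ℤ) → ℝ, ∀ u : V → ℤ,
      (if ∀ v ∈ K, u v = 0 then ENNReal.ofReal (Wm s t a J' u * F u) else 0) =
      ENNReal.ofReal (bw D (φ J') m (X ∪ (K : Set V)) u * F u) := by
    intro F u
    rw [hW, bw_union]
    unfold iX
    by_cases h1 : ∀ v ∈ K, u v = 0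
    · rw [if_pos h1, if_pos (by simpa using h1), mul_one]
    · rw [if_neg h1, if_neg (by simpa using h1)]
      simp
  have k1 := key fun h => (li g h) ^ 2
  have k2 : ∀ u : V → ℤ, (if ∀ v ∈ K, u v = 0 then ENNReal.ofReal (Wm s t a J' u) else 0) =
      ENNReal.ofReal (bw D (φ J') m (X ∪ (K : Set V)) u * 1) := by
    intro u
    rw [← key (fun _ => 1) u, mul_one]
  rw [tsum_congr k1, tsum_congr k2]
  have hF : Inc fun h : V → ℤ => (lf g h) ^ 2 := inc_sq g
  rw [tsum_ofReal_bw (hφ0 J' hJ') hm _ (F := fun h => (li g h) ^ 2) hF.1 fun _ => sq_nonneg _,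
    tsum_ofReal_bw (hφ0 J' hJ') hm _ (F := fun _ => (1 : ℝ)) (H708.Gr.one) fun _ => zero_le_one,
    ← ENNReal.ofReal_mul]
  · refine ENNReal.ofReal_le_ofReal ?_
    exact mono_two D (hφ0 J' hJ') (hφm J' hJJ) hm X (by exact_mod_cast hK) hF
      fun _ => sq_nonneg _
  · have hφJ : ∀ e, 0 ≤ φ J e := fun e => (hφ0 J' hJ' e).trans (hφm J' hJJ e)
    refine div_nonneg (tsum_nonneg fun h => mul_nonneg (bw_nonneg hφJ h) (sq_nonneg _)) ?_
    exact (SS_one_pos D hφJ hm _).le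

/-- summability of the second moments -/
theorem mom_gen {s t : E → V} {a : V → ℤ → ℝ} {J : E → ℝ} (hJ : ∀ e, 0 ≤ J e)
    (ha : ∀ v n, 0 ≤ a v n) (hae : ∀ v n, a v (-n) = a v n)
    (D : (V → ℤ) →+ (E' → ℤ)) {J1 : E' → ℝ} (hJ1 : ∀ e, 0 ≤ J1 e)
    {m : V → ℝ} (hm : ∀ x, 0 < m x) (X : Set V)
    (hW : ∀ h, Wm s t a J h = bw D J1 m X h) : Mom (sy s t a J hJ ha hae) := by
  intro u v
  have hg : H708.Gr fun h : V → ℤ => |(h u : ℝ)| * |(h v : ℝ)| := by
    have h1 : ∀ w : V, H708.Gr fun h : V → ℤ => |(h w : ℝ)| := by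
      intro w
      obtain ⟨A, c, hA⟩ := gr_lf (V := V) (Pi.single w 1)
      refine ⟨A, c, fun h => ?_⟩
      have h2 : |H708.lf (Pi.single w 1) h| ≤ A * Real.exp (∑ x, c x * |(h x : ℝ)|) := hA h
      have h3 : H708.lf (Pi.single w 1) h = (h w : ℝ) := by
        unfold H708.lf
        rw [Finset.sum_eq_single w]
        · simp
        · intro y _ hy
          rw [Pi.single_eq_of_ne hy, zero_mul]
        · intro h4; exact absurd (Finset.mem_univ w) h4
      rw [h3] at h2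
      simp only [abs_abs]
      exact h2
    exact (h1 u).mul (h1 v)
  have h5 := (bw_summable (D := D) (X := X) hJ1 hm hg).of_abs
  refine h5.congr fun h => ?_
  rw [tot_sy, hW]
  rfl

/-- **E3 for a model whose weight is a massive Bessel weight.** -/
theorem e3_gen {s t : E → V} {a : V → ℤ → ℝ} {J : E → ℝ} (hJ : ∀ e, 0 ≤ J e)
    (ha : ∀ v n, 0 ≤ a v n) (hae : ∀ v n, a v (-n) = a v n) (ha0 : ∀ v, 0 < a v 0)
    (D : (V → ℤ) →+ (E' → ℤ))
    {φ : (E → ℝ) → E' → ℝ} {m : V → ℝ} (hm : ∀ x, 0 < m x) (X : Set V)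
    (hφ0 : ∀ J' : E → ℝ, (∀ e, 0 ≤ J' e) → ∀ e, 0 ≤ φ J' e)
    (hφm : ∀ J' : E → ℝ, (∀ e, J' e ≤ J e) → ∀ e, φ J' e ≤ φ J e)
    (hW : ∀ J' : E → ℝ, ∀ h, Wm s t a J' h = bw D (φ J') m X h) (A : Finset V)
    (g : V → ℝ) :
    SS D (φ J) m X (fun h => (lf g h) ^ 2) ≤
      ∑ om : Finset E, ∑' u, (sy s t a J hJ ha hae).wt om u *
        Xi (sy s t a J hJ ha hae) g A om u +
      SS D (φ J) m (X ∪ (A : Set V)) (fun h => (lf g h) ^ 2) /
        SS D (φ J) m (X ∪ (A : Set V)) (fun _ => 1) * SS D (φ J) m X fun _ => 1 := by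
  have hφJ := hφ0 J hJ
  have hs := mom_gen hJ ha hae D hφJ hm X (hW J)
  have hZ : Summable (Wm s t a J) := by
    have h5 := (bw_summable (D := D) (X := X) hφJ hm (Gr.one (V := V))).of_abs
    refine h5.congr fun h => ?_
    rw [hW, mul_one]
  have hR : 0 ≤ SS D (φ J) m (X ∪ (A : Set V)) (fun h => (lf g h) ^ 2) /
        SS D (φ J) m (X ∪ (A : Set V)) (fun _ => 1) :=
    div_nonneg (tsum_nonneg fun h => mul_nonneg (bw_nonneg hφJ h) (sq_nonneg _))
      (SS_one_pos D hφJ hm _).le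
  have h1 := e3 hJ ha hae ha0 (A := A) (g := g) hR (monoR_gen D hm X hφ0 hφm hW A g) hs hZ
  have e1 : ∑' u, Wm s t a J u * (li g u) ^ 2 = SS D (φ J) m X fun h => (lf g h) ^ 2 := by
    unfold SS
    refine tsum_congr fun h => ?_
    rw [hW]
    rfl
  have e2 : ∑' u, Wm s t a J u = SS D (φ J) m X fun _ => 1 := by
    unfold SS
    refine tsum_congr fun h => ?_
    rw [hW, mul_one]
  rw [e1, e2] at h1
  exact h1

/-! ### masses only -/

/-- the Gaussian site weight -/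
noncomputable def gs (m : V → ℝ) (v : V) (n : ℤ) : ℝ := Real.exp (-(m v / 2) * ((n : ℝ)) ^ 2)

theorem gs_pos (m : V → ℝ) (v : V) (n : ℤ) : 0 < gs m v n := Real.exp_pos _

theorem gs_neg (m : V → ℝ) (v : V) (n : ℤ) : gs m v (-n) = gs m v n := by
  unfold gs
  congr 1
  push_cast
  ring

theorem prod_gs (m : V → ℝ) (h : V → ℤ) : ∏ v, gs m v (h v) = ga m h := by
  unfold gs ga
  rw [← Real.exp_sum]
  congr 1
  rw [← Finset.sum_neg_distrib]
  exact Finset.sum_congr rfl fun v _ => by ring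

theorem Wm_gs (s t : E → V) (m : V → ℝ) (J : E → ℝ) (h : V → ℤ) :
    Wm s t (gs m) J h = bw (grd s t) J m ∅ h := by
  unfold Wm bw
  rw [prod_gs]
  have : iX (∅ : Set V) h = 1 := by
    unfold iX
    rw [if_pos]
    intro x hx
    exact absurd hx (Set.notMem_empty x)
  rw [this, mul_one]
  rfl

/-- the single copy system with masses -/
noncomputable def syM (s t : E → V) (J : E → ℝ) (m : V → ℝ) (hJ : ∀ e, 0 ≤ J e) :
    Sys V E ℤ :=
  sy s t (gs m) J hJ (fun v n => (gs_pos m v n).le) (gs_neg m)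

/-- **E3: torus / free box with masses.** -/
theorem e3_mass (s t : E → V) {J : E → ℝ} (hJ : ∀ e, 0 ≤ J e) {m : V → ℝ} (hm : ∀ x, 0 < m x)
    (A : Finset V) (g : V → ℝ) :
    SS (grd s t) J m ∅ (fun h => (lf g h) ^ 2) ≤
      ∑ om : Finset E, ∑' u, (syM s t J m hJ).wt om u * Xi (syM s t J m hJ) g A om u +
      SS (grd s t) J m (A : Set V) (fun h => (lf g h) ^ 2) /
        SS (grd s t) J m (A : Set V) (fun _ => 1) * SS (grd s t) J m ∅ fun _ => 1 := by
  have h := e3_gen (E' := E) hJ (fun v n => (gs_pos m v n).le) (gs_neg m)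
    (fun v => gs_pos m v 0) (grd s t) (φ := fun J' => J') hm ∅ (fun _ h => h) (fun _ h => h)
    (fun J' h => Wm_gs s t m J' h) A g
  rw [Set.empty_union] at h
  exact h

/-- **E3 in terms of expectations.** -/
theorem e3_var (s t : E → V) {J : E → ℝ} (hJ : ∀ e, 0 ≤ J e) {m : V → ℝ} (hm : ∀ x, 0 < m x)
    (A : Finset V) (g : V → ℝ) :
    SS (grd s t) J m ∅ (fun h => (lf g h) ^ 2) / SS (grd s t) J m ∅ (fun _ => 1) -
      SS (grd s t) J m (A : Set V) (fun h => (lf g h) ^ 2) /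
        SS (grd s t) J m (A : Set V) (fun _ => 1) ≤
      (∑ om : Finset E, ∑' u, (syM s t J m hJ).wt om u * Xi (syM s t J m hJ) g A om u) /
        SS (grd s t) J m ∅ (fun _ => 1) := by
  have h := e3_mass s t hJ hm A g
  have hp := SS_one_pos (grd s t) hJ hm ∅
  rw [sub_le_iff_le_add, div_add' _ _ _ hp.ne']
  exact div_le_div_of_nonneg_right h hp.le

/-! ### masses, zero pins of finite strength, zero boundary values -/

section full

variable {P : Type} [Fintype P] [DecidableEq P]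

open Classical in
/-- the site weight: mass, pins, zero on `X` -/
noncomputable def gx (m : V → ℝ) (pt : P → V) (c : P → ℝ) (X : Set V) (v : V) (n : ℤ) : ℝ :=
  gs m v n * (∏ p with pt p = v, wI (c p) n) * (if v ∈ X ∧ n ≠ 0 then 0 else 1)

theorem gx_nonneg (m : V → ℝ) (pt : P → V) {c : P → ℝ} (hc : ∀ p, 0 ≤ c p) (X : Set V)
    (v : V) (n : ℤ) : 0 ≤ gx m pt c X v n := by
  classical
  unfold gx
  refine mul_nonneg (mul_nonneg (gs_pos m v n).le
    (Finset.prod_nonneg fun p _ => wI_nonneg (hc p) n)) ?_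
  split_ifs <;> norm_num

theorem gx_neg (m : V → ℝ) (pt : P → V) (c : P → ℝ) (X : Set V) (v : V) (n : ℤ) :
    gx m pt c X v (-n) = gx m pt c X v n := by
  classical
  unfold gx
  rw [gs_neg]
  have h1 : ∏ p with pt p = v, wI (c p) (-n) = ∏ p with pt p = v, wI (c p) n :=
    Finset.prod_congr rfl fun p _ => wI_neg _ _
  rw [h1]
  simp only [neg_ne_zero]

theorem gx_zero_pos (m : V → ℝ) (pt : P → V) {c : P → ℝ} (hc : ∀ p, 0 ≤ c p) (X : Set V)
    (v : V) : 0 < gx m pt c X v 0 := by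
  classical
  unfold gx
  rw [if_neg (fun h => h.2 rfl), mul_one]
  exact mul_pos (gs_pos m v 0) (Finset.prod_pos fun p _ => wI_zero_pos (hc p))

theorem prod_gx (m : V → ℝ) (pt : P → V) (c : P → ℝ) (X : Set V) (h : V → ℤ) :
    ∏ v, gx m pt c X v (h v) = ga m h * (∏ p, wI (c p) (h (pt p))) * iX X h := by
  classical
  unfold gx
  rw [Finset.prod_mul_distrib, Finset.prod_mul_distrib, prod_gs]
  congr 1
  · congr 1
    rw [← Finset.prod_fiberwise_of_maps_to (s := (univ : Finset P)) (t := (univ : Finset V))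
      (g := pt) (fun _ _ => Finset.mem_univ _) (fun p => wI (c p) (h (pt p)))]
    refine Finset.prod_congr rfl fun v _ => Finset.prod_congr rfl fun p hp => ?_
    rw [(Finset.mem_filter.1 hp).2]
  · unfold iX
    by_cases h1 : ∀ x ∈ X, h x = 0
    · rw [if_pos h1]
      refine Finset.prod_eq_one fun v _ => ?_
      rw [if_neg]
      rintro ⟨h2, h3⟩
      exact h3 (h1 v h2)
    · rw [if_neg h1]
      push Not at h1
      obtain ⟨x, hx, hne⟩ := h1
      exact Finset.prod_eq_zero (Finset.mem_univ x) (if_pos ⟨hx, hne⟩)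

theorem Wm_gx (s t : E → V) (m : V → ℝ) (pt : P → V) (c : P → ℝ) (X : Set V) (J : E → ℝ)
    (h : V → ℤ) :
    Wm s t (gx m pt c X) J h = bw (grdL s t pt) (Sum.elim J c) m X h := by
  unfold Wm bw
  rw [prod_gx, W_grdL]
  unfold Psi vals W
  simp only [AddMonoidHom.coe_mk, ZeroHom.coe_mk, sub_zero]
  show _ = (∏ e, wI (J e) (h (t e) - h (s e))) * (∏ y, wI (c y) (h (pt y))) * (ga m h * iX X h)
  ring

/-- the single copy system with masses, pins and zero boundary values -/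
noncomputable def syX (s t : E → V) (J : E → ℝ) (m : V → ℝ) (pt : P → V) (c : P → ℝ)
    (X : Set V) (hJ : ∀ e, 0 ≤ J e) (hc : ∀ p, 0 ≤ c p) : Sys V E ℤ :=
  sy s t (gx m pt c X) J hJ (gx_nonneg m pt hc X) (gx_neg m pt c X)

/-- **E3: masses, zero pins of finite strength, zero boundary values on `X`.** -/
theorem e3_full (s t : E → V) {J : E → ℝ} (hJ : ∀ e, 0 ≤ J e) {m : V → ℝ} (hm : ∀ x, 0 < m x)
    (pt : P → V) {c : P → ℝ} (hc : ∀ p, 0 ≤ c p) (X : Set V) (A : Finset V) (g : V → ℝ) :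
    SS (grdL s t pt) (Sum.elim J c) m X (fun h => (lf g h) ^ 2) ≤
      ∑ om : Finset E, ∑' u, (syX s t J m pt c X hJ hc).wt om u *
        Xi (syX s t J m pt c X hJ hc) g A om u +
      SS (grdL s t pt) (Sum.elim J c) m (X ∪ (A : Set V)) (fun h => (lf g h) ^ 2) /
        SS (grdL s t pt) (Sum.elim J c) m (X ∪ (A : Set V)) (fun _ => 1) *
          SS (grdL s t pt) (Sum.elim J c) m X fun _ => 1 := by
  refine e3_gen hJ (gx_nonneg m pt hc X) (gx_neg m pt c X) (gx_zero_pos m pt hc X)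
    (grdL s t pt) (φ := fun J' => Sum.elim J' c) hm X ?_ ?_ (fun J' h => Wm_gx s t m pt c X J' h)
    A g
  · rintro J' h0 (e | p)
    · exact h0 e
    · exact hc p
  · rintro J' h0 (e | p)
    · exact h0 e
    · exact le_rfl

end full

end Vale.Agent.P159.TM.H682
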