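import Vale.Agent.P159.TM.H682.Out

/-!
Row E3: for one copy without background, the second moment of a linear functional is at most the
second moment in the model with zero on `A` plus the sum over the open clusters which meet `A` of
the squared masses.
-/

open Finset MeasureTheory
open scoped ENNReal

set_option linter.unusedSectionVars false
set_option linter.unusedDecidableInType false

namespace Vale.Agent.P159.TM.H682

open Vale.Agent.P159.TM.H60 Vale.Agent.P159.TM.H131 Vale.Agent.P159.H353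

variable {V E : Type*} [Fintype V] [DecidableEq V] [Fintype E] [DecidableEq E]
variable {s t : E → V} {a : V → ℤ → ℝ} {J : E → ℝ}

/-- the weight of a configuration with hull `K` -/
noncomputable def wK (σ : Sys V E ℤ) (A K : Finset V) (u : V → ℤ) : ℝ :=
  insH σ.s σ.t (fun e => σ.op e (u (σ.s e)) (u (σ.t e)))
      (fun e => σ.cl e (u (σ.s e)) (u (σ.t e))) A K *
    (∏ e ∈ bdE σ.s σ.t K, σ.cl e (u (σ.s e)) (u (σ.t e))) *
    (∏ e ∈ outE σ.s σ.t K, σ.fl e (u (σ.s e)) (u (σ.t e))) * ∏ v, σ.g v (u v)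

theorem insH_nonneg (σ : Sys V E ℤ) (A K : Finset V) (u : V → ℤ) :
    0 ≤ insH σ.s σ.t (fun e => σ.op e (u (σ.s e)) (u (σ.t e)))
      (fun e => σ.cl e (u (σ.s e)) (u (σ.t e))) A K := by
  unfold insH
  refine Finset.sum_nonneg fun om _ => mul_nonneg ?_ ?_
  · exact Finset.prod_nonneg fun e _ => σ.op_nonneg _ _ _
  · exact Finset.prod_nonneg fun e _ => σ.cl_nonneg _ _ _

theorem wK_nonneg (σ : Sys V E ℤ) (A K : Finset V) (u : V → ℤ) : 0 ≤ wK σ A K u := by
  unfold wK
  refine mul_nonneg (mul_nonneg (mul_nonneg (insH_nonneg σ A K u) ?_) ?_) ?_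
  · exact Finset.prod_nonneg fun e _ => σ.cl_nonneg _ _ _
  · exact Finset.prod_nonneg fun e _ => σ.fl_nonneg _ _ _
  · exact Finset.prod_nonneg fun v _ => σ.g_nonneg _ _

theorem sum_wt_hull (σ : Sys V E ℤ) (A : Finset V) (u : V → ℤ) (Φ : Finset V → ℝ) :
    ∑ om : Finset E, σ.wt om u * Φ (hull σ.s σ.t om A) = ∑ K : Finset V, wK σ A K u * Φ K := by
  have h1 := hull_decomp σ.s σ.t (fun e => σ.op e (u (σ.s e)) (u (σ.t e)))
    (fun e => σ.cl e (u (σ.s e)) (u (σ.t e))) A Φ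
  have h2 := congrArg (fun r => r * ∏ v, σ.g v (u v)) h1
  simp only [Finset.sum_mul] at h2
  calc ∑ om : Finset E, σ.wt om u * Φ (hull σ.s σ.t om A)
      = ∑ om : Finset E, (∏ e ∈ om, σ.op e (u (σ.s e)) (u (σ.t e))) *
          (∏ e ∈ omᶜ, σ.cl e (u (σ.s e)) (u (σ.t e))) * Φ (hull σ.s σ.t om A) *
          ∏ v, σ.g v (u v) := by
        refine Finset.sum_congr rfl fun om _ => ?_
        unfold Sys.wt
        ring
    _ = _ := h2
    _ = ∑ K : Finset V, wK σ A K u * Φ K := by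
        refine Finset.sum_congr rfl fun K _ => ?_
        unfold wK
        have h3 : ∏ e ∈ outE σ.s σ.t K, (σ.op e (u (σ.s e)) (u (σ.t e)) +
            σ.cl e (u (σ.s e)) (u (σ.t e))) =
            ∏ e ∈ outE σ.s σ.t K, σ.fl e (u (σ.s e)) (u (σ.t e)) :=
          Finset.prod_congr rfl fun e _ => σ.op_add_cl _ _ _
        rw [h3]
        ring

section main
variable (hJ : ∀ e, 0 ≤ J e) (ha : ∀ v n, 0 ≤ a v n) (hae : ∀ v n, a v (-n) = a v n)

/-- the inside factor -/
noncomputable def inW (σ : Sys V E ℤ) (A K : Finset V) (u : V → ℤ) : ℝ≥0∞ :=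
  ENNReal.ofReal (insH σ.s σ.t (fun e => σ.op e (u (σ.s e)) (u (σ.t e)))
      (fun e => σ.cl e (u (σ.s e)) (u (σ.t e))) A K) * ∏ v ∈ K, ENNReal.ofReal (σ.g v (u v))

theorem inW_gl (σ : Sys V E ℤ) (A K : Finset V) (x : {v // v ∈ K} → ℤ)
    (y : {v // v ∉ K} → ℤ) : inW σ A K (gl K x y) = inW σ A K (gl K x 0) := by
  unfold inW
  congr 1
  · congr 1
    refine insH_congr σ.s σ.t (fun e he => ?_) (fun e he => ?_)
    · have h := mem_inE.1 he
      rw [gl_mem h.1, gl_mem h.2, gl_mem h.1, gl_mem h.2]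
    · have h := mem_inE.1 he
      rw [gl_mem h.1, gl_mem h.2, gl_mem h.1, gl_mem h.2]
  · refine Finset.prod_congr rfl fun v hv => ?_
    rw [gl_mem hv, gl_mem hv]

theorem cl_sy (K : Finset V) (u : V → ℤ) {e : E} (he : e ∈ bdE s t K) :
    (sy s t a J hJ ha hae).cl e (u (s e)) (u (t e)) =
      min (wI (J e) (ov s t K u e - iv s t K u e)) (wI (J e) (ov s t K u e + iv s t K u e)) := by
  have h3 := mem_bdE.1 he
  show min (wI (J e) (u (t e) - u (s e))) (wI (J e) (u (t e) - -u (s e))) = _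
  unfold ov iv
  by_cases hs : s e ∈ K
  · rw [if_pos hs, if_pos hs, sub_neg_eq_add]
  · rw [if_neg hs, if_neg hs, sub_neg_eq_add]
    congr 1
    · rw [← wI_neg]; congr 1; ring
    · congr 1; ring

theorem ofReal_wK (A K : Finset V) (x : {v // v ∈ K} → ℤ) (y : {v // v ∉ K} → ℤ) :
    ENNReal.ofReal (wK (sy s t a J hJ ha hae) A K (gl K x y)) =
      inW (sy s t a J hJ ha hae) A K (gl K x 0) * (outW s t a J K (gl K 0 y) *
        ∏ e ∈ bdE s t K, ENNReal.ofReal (min
          (wI (J e) (ov s t K (gl K x y) e - iv s t K (gl K x y) e))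
          (wI (J e) (ov s t K (gl K x y) e + iv s t K (gl K x y) e)))) := by
  set σ := sy s t a J hJ ha hae with hσ
  rw [← inW_gl σ A K x y]
  unfold wK
  rw [ENNReal.ofReal_mul (mul_nonneg (mul_nonneg (insH_nonneg σ A K _)
      (Finset.prod_nonneg fun e _ => σ.cl_nonneg _ _ _))
      (Finset.prod_nonneg fun e _ => σ.fl_nonneg _ _ _)),
    ENNReal.ofReal_mul (mul_nonneg (insH_nonneg σ A K _)
      (Finset.prod_nonneg fun e _ => σ.cl_nonneg _ _ _)),
    ENNReal.ofReal_mul (insH_nonneg σ A K _),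
    ENNReal.ofReal_prod_of_nonneg fun e _ => σ.cl_nonneg _ _ _,
    ENNReal.ofReal_prod_of_nonneg fun e _ => σ.fl_nonneg _ _ _,
    ENNReal.ofReal_prod_of_nonneg fun v _ => σ.g_nonneg _ _]
  have h1 : ∏ e ∈ bdE σ.s σ.t K, ENNReal.ofReal (σ.cl e (gl K x y (σ.s e)) (gl K x y (σ.t e))) =
      ∏ e ∈ bdE s t K, ENNReal.ofReal (min
          (wI (J e) (ov s t K (gl K x y) e - iv s t K (gl K x y) e))
          (wI (J e) (ov s t K (gl K x y) e + iv s t K (gl K x y) e))) := by
    refine Finset.prod_congr rfl fun e he => ?_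
    rw [← cl_sy hJ ha hae K (gl K x y) he]
    rfl
  have h2 : ∏ e ∈ outE σ.s σ.t K, ENNReal.ofReal
      (σ.fl e (gl K x y (σ.s e)) (gl K x y (σ.t e))) =
      ∏ e ∈ outE s t K, ENNReal.ofReal (wI (J e) (gl K 0 y (t e) - gl K 0 y (s e))) := by
    refine Finset.prod_congr rfl fun e he => ?_
    have h := mem_outE.1 he
    show ENNReal.ofReal (wI (J e) (gl K x y (t e) - gl K x y (s e))) = _
    have h5 : s e ∉ K := h.1
    have h6 : t e ∉ K := h.2
    rw [gl_not_mem h5, gl_not_mem h6, gl_not_mem h5, gl_not_mem h6]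
  have h3 : ∏ v, ENNReal.ofReal (σ.g v (gl K x y v)) =
      (∏ v ∈ K, ENNReal.ofReal (σ.g v (gl K x y v))) *
        ∏ v ∈ Kᶜ, ENNReal.ofReal (a v (gl K 0 y v)) := by
    rw [← Finset.prod_mul_prod_compl K]
    congr 1
    refine Finset.prod_congr rfl fun v hv => ?_
    have h7 : v ∉ K := Finset.mem_compl.1 hv
    rw [gl_not_mem h7, gl_not_mem h7]
    rfl
  rw [h1, h2, h3]
  unfold inW outW
  ring

/-- the inequality for a given hull -/
theorem hull_ineq (ha0 : ∀ v, 0 < a v 0) {A : Finset V} {g : V → ℝ} {R : ℝ≥0∞}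
    (hm : MonoR s t a J A g R) (K : Finset V) :
    ∑' u, ENNReal.ofReal (wK (sy s t a J hJ ha hae) A K u *
        (li (cutG g K) u) ^ 2) ≤
      R * ∑' u, ENNReal.ofReal (wK (sy s t a J hJ ha hae) A K u) := by
  by_cases hK : A ⊆ K
  swap
  · have h0 : ∀ u, wK (sy s t a J hJ ha hae) A K u = 0 := by
      intro u
      unfold wK
      rw [insH_eq_zero _ _ _ _ hK]
      ring
    simp [h0]
  rw [tsum_gl K, tsum_gl K (fun u => ENNReal.ofReal (wK (sy s t a J hJ ha hae) A K u)),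
    ← ENNReal.tsum_mul_left]
  refine ENNReal.tsum_le_tsum fun x => ?_
  have h1 := out_fix hJ ha ha0 hm hK x
  have h2 := mul_le_mul_right h1 (inW (sy s t a J hJ ha hae) A K (gl K x 0))
  rw [← ENNReal.tsum_mul_left, ← ENNReal.tsum_mul_left] at h2
  rw [← ENNReal.tsum_mul_left]
  refine le_trans (le_of_eq (tsum_congr fun y => ?_)) (h2.trans (le_of_eq (tsum_congr
      fun y => ?_)))
  · rw [ENNReal.ofReal_mul (wK_nonneg _ _ _ _), ofReal_wK, li_gl]
    ring
  · rw [ofReal_wK]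
    ring

/-- **E3 in `[0, ∞]`.** -/
theorem rest_le (ha0 : ∀ v, 0 < a v 0) {A : Finset V} {g : V → ℝ} {R : ℝ≥0∞}
    (hm : MonoR s t a J A g R) :
    ∑ om : Finset E, ∑' u, ENNReal.ofReal ((sy s t a J hJ ha hae).wt om u *
        (li (cutG g (hull s t om A)) u) ^ 2) ≤
      R * ∑' u, ENNReal.ofReal ((sy s t a J hJ ha hae).tot u) := by
  set σ := sy s t a J hJ ha hae with hσ
  have e1 : ∑ om : Finset E, ∑' u, ENNReal.ofReal (σ.wt om u *
      (li (cutG g (hull s t om A)) u) ^ 2) =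
      ∑ K : Finset V, ∑' u, ENNReal.ofReal (wK σ A K u * (li (cutG g K) u) ^ 2) := by
    rw [← Summable.tsum_finsetSum fun _ _ => ENNReal.summable,
      ← Summable.tsum_finsetSum fun _ _ => ENNReal.summable]
    refine tsum_congr fun u => ?_
    rw [← ENNReal.ofReal_sum_of_nonneg fun om _ =>
        mul_nonneg (σ.wt_nonneg om u) (sq_nonneg _),
      ← ENNReal.ofReal_sum_of_nonneg fun K _ =>
        mul_nonneg (wK_nonneg σ A K u) (sq_nonneg _)]
    congr 1
    exact sum_wt_hull σ A u fun K => (li (cutG g K) u) ^ 2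
  have e2 : ∑' u, ENNReal.ofReal (σ.tot u) = ∑ K : Finset V, ∑' u,
      ENNReal.ofReal (wK σ A K u) := by
    rw [← Summable.tsum_finsetSum fun _ _ => ENNReal.summable]
    refine tsum_congr fun u => ?_
    rw [← ENNReal.ofReal_sum_of_nonneg fun K _ => wK_nonneg σ A K u, ← σ.sum_wt u]
    congr 1
    have := sum_wt_hull σ A u fun _ => 1
    simpa using this
  rw [e1, e2, Finset.mul_sum]
  exact Finset.sum_le_sum fun K _ => hull_ineq hJ ha hae ha0 hm K

theorem tot_sy (u : V → ℤ) : (sy s t a J hJ ha hae).tot u = Wm s t a J u := rfl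

theorem lin_sy (g : V → ℝ) (u : V → ℤ) : lin (sy s t a J hJ ha hae) g u = li g u := rfl

/-- **E3.** -/
theorem e3 (ha0 : ∀ v, 0 < a v 0) {A : Finset V} {g : V → ℝ} {R : ℝ} (hR : 0 ≤ R)
    (hm : MonoR s t a J A g (ENNReal.ofReal R)) (hs : Mom (sy s t a J hJ ha hae))
    (hZ : Summable (Wm s t a J)) :
    ∑' u, Wm s t a J u * (li g u) ^ 2 ≤
      ∑ om : Finset E, ∑' u, (sy s t a J hJ ha hae).wt om u *
        Xi (sy s t a J hJ ha hae) g A om u + R * ∑' u, Wm s t a J u := by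
  set σ := sy s t a J hJ ha hae with hσ
  have e1 : ∑' u, Wm s t a J u * (li g u) ^ 2 =
      ∑ om : Finset E, ∑' u, σ.wt om u * (lin σ g u) ^ 2 := by
    rw [← Summable.tsum_finsetSum fun om _ => hs.lin_sq g om]
    refine tsum_congr fun u => ?_
    rw [← Finset.sum_mul, σ.sum_wt]
    rfl
  rw [e1, Finset.sum_congr rfl fun om _ => tsum_split hs om g A, Finset.sum_add_distrib]
  refine add_le_add le_rfl ?_
  have h1 := rest_le hJ ha hae ha0 hm
  rw [← hσ] at h1
  have s1 : ∀ om : Finset E, Summable fun u => σ.wt om u *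
      (lin σ (cutG g (hull σ.s σ.t om A)) u) ^ 2 := fun om => hs.lin_sq _ om
  have n1 : ∀ (om : Finset E) u, 0 ≤ σ.wt om u * (lin σ (cutG g (hull σ.s σ.t om A)) u) ^ 2 :=
    fun om u => mul_nonneg (σ.wt_nonneg om u) (sq_nonneg _)
  have n2 : ∀ u, 0 ≤ σ.tot u := fun u => σ.tot_nonneg u
  have e3 : ∑ om : Finset E, ∑' u, ENNReal.ofReal (σ.wt om u *
        (li (cutG g (hull s t om A)) u) ^ 2) = ENNReal.ofReal (∑ om : Finset E, ∑' u,
          σ.wt om u * (lin σ (cutG g (hull σ.s σ.t om A)) u) ^ 2) := by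
    rw [ENNReal.ofReal_sum_of_nonneg fun om _ => tsum_nonneg (n1 om)]
    refine Finset.sum_congr rfl fun om _ => ?_
    rw [ENNReal.ofReal_tsum_of_nonneg (n1 om) (s1 om)]
    rfl
  have e4 : ENNReal.ofReal R * ∑' u, ENNReal.ofReal (σ.tot u) =
      ENNReal.ofReal (R * ∑' u, Wm s t a J u) := by
    rw [ENNReal.ofReal_mul hR]
    congr 1
    exact (ENNReal.ofReal_tsum_of_nonneg (f := fun u => σ.tot u) n2 hZ).symm
  rw [e3, e4] at h1
  exact (ENNReal.ofReal_le_ofReal_iff (mul_nonneg hR (tsum_nonneg fun u => n2 u))).1 h1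

end main

end Vale.Agent.P159.TM.H682
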