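import Vale.Agent.P159.TM.H60.Clus

/-!
Row E3: decomposition with respect to the union of the open clusters which meet a given set.
-/

open Finset

set_option linter.unusedSectionVars false
set_option linter.unusedDecidableInType false

namespace Vale.Agent.P159.TM.H682

open Vale.Agent.P159.TM.H60

variable {V E : Type*} [Fintype V] [DecidableEq V] [Fintype E] [DecidableEq E]

open Classical in
/-- the union of the open clusters which meet `A` -/
noncomputable def hull (a b : E → V) (om : Finset E) (A : Finset V) : Finset V :=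
  univ.filter (fun v => ∃ u ∈ A, Conn a b om u v)

theorem mem_hull {a b : E → V} {om : Finset E} {A : Finset V} {v : V} :
    v ∈ hull a b om A ↔ ∃ u ∈ A, Conn a b om u v := by
  classical
  simp [hull]

theorem subset_hull {a b : E → V} {om : Finset E} (A : Finset V) : A ⊆ hull a b om A :=
  fun u hu => mem_hull.2 ⟨u, hu, Conn.refl u⟩

theorem hull_conn {a b : E → V} {om : Finset E} {A : Finset V} {v w : V}
    (h : Conn a b om v w) : v ∈ hull a b om A ↔ w ∈ hull a b om A := by
  rw [mem_hull, mem_hull]
  exact ⟨fun ⟨u, hu, h1⟩ => ⟨u, hu, h1.trans h⟩, fun ⟨u, hu, h1⟩ => ⟨u, hu, h1.trans h.symm⟩⟩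

/-- both endpoints of an open edge are in the hull or none of them -/
theorem hull_edge {a b : E → V} {om : Finset E} {A : Finset V} {e : E} (he : e ∈ om) :
    a e ∈ hull a b om A ↔ b e ∈ hull a b om A := hull_conn (Conn.edge he)

theorem hull_no_bd {a b : E → V} {om : Finset E} {A K : Finset V}
    (h : hull a b om A = K) : Disjoint om (bdE a b K) := by
  rw [Finset.disjoint_left]
  intro e he hb
  rw [mem_bdE] at hb
  subst h
  exact hb (hull_edge he)

theorem hull_inter_in {a b : E → V} {om : Finset E} {A K : Finset V}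
    (h : hull a b om A = K) : hull a b (om ∩ inE a b K) A = K := by
  apply Finset.Subset.antisymm
  · intro v hv
    rw [← h, mem_hull]
    rw [mem_hull] at hv
    obtain ⟨u, hu, hv⟩ := hv
    exact ⟨u, hu, hv.mono Finset.inter_subset_left⟩
  · intro v hv
    rw [← h, mem_hull] at hv
    rw [mem_hull]
    obtain ⟨u, hu, hv⟩ := hv
    refine ⟨u, hu, ?_⟩
    unfold Conn at hv ⊢
    induction hv with
    | refl => exact Relation.ReflTransGen.refl
    | @tail y z h1 h2 ih =>
      refine ih.tail ?_
      obtain ⟨e, he, hxy⟩ := h2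
      have hy : y ∈ K := by rw [← h]; exact mem_hull.2 ⟨u, hu, h1⟩
      have hz : z ∈ K := by
        rw [← h]
        exact mem_hull.2 ⟨u, hu, Relation.ReflTransGen.tail h1 ⟨e, he, hxy⟩⟩
      refine ⟨e, ?_, hxy⟩
      rw [Finset.mem_inter, mem_inE]
      refine ⟨he, ?_⟩
      rcases hxy with ⟨h3, h4⟩ | ⟨h3, h4⟩
      · rw [h3, h4]; exact ⟨hy, hz⟩
      · rw [h3, h4]; exact ⟨hz, hy⟩

theorem hull_union {a b : E → V} {s t : Finset E} {A K : Finset V}
    (h : hull a b s A = K) (ht : t ⊆ outE a b K) : hull a b (s ∪ t) A = K := by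
  apply Finset.Subset.antisymm
  · intro v hv
    rw [mem_hull] at hv
    obtain ⟨u, hu, hv⟩ := hv
    unfold Conn at hv
    induction hv with
    | refl => rw [← h]; exact subset_hull A hu
    | @tail y z h1 h2 ih =>
      obtain ⟨e, he, hxy⟩ := h2
      rcases Finset.mem_union.1 he with hes | het
      · rw [← h] at ih ⊢
        rw [mem_hull] at ih ⊢
        obtain ⟨w, hw, ih⟩ := ih
        exact ⟨w, hw, ih.tail ⟨e, hes, hxy⟩⟩
      · have := ht het
        rw [mem_outE] at this
        rcases hxy with ⟨h3, h4⟩ | ⟨h3, h4⟩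
        · rw [h3] at this; exact absurd ih this.1
        · rw [h4] at this; exact absurd ih this.2
  · intro v hv
    rw [← h, mem_hull] at hv
    rw [mem_hull]
    obtain ⟨u, hu, hv⟩ := hv
    exact ⟨u, hu, hv.mono Finset.subset_union_left⟩

/-- total weight of the open configurations inside `K` for which the hull of `A` is `K` -/
noncomputable def insH {R : Type*} [CommSemiring R] (a b : E → V) (op cl : E → R)
    (A K : Finset V) : R :=
  ∑ om ∈ (inE a b K).powerset.filter (fun om => hull a b om A = K),
    (∏ e ∈ om, op e) * ∏ e ∈ inE a b K \ om, cl e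

theorem eq_union_of_hull {a b : E → V} {om : Finset E} {A K : Finset V}
    (h : hull a b om A = K) : om = (om ∩ inE a b K) ∪ (om ∩ outE a b K) := by
  ext e
  simp only [Finset.mem_union, Finset.mem_inter]
  constructor
  · intro he
    have h1 : e ∈ inE a b K ∪ bdE a b K ∪ outE a b K := by
      rw [union_three]; exact Finset.mem_univ e
    have h2 := Finset.disjoint_left.1 (hull_no_bd h) he
    rcases Finset.mem_union.1 h1 with h3 | h3
    · rcases Finset.mem_union.1 h3 with h4 | h4
      · exact Or.inl ⟨he, h4⟩
      · exact absurd h4 h2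
    · exact Or.inr ⟨he, h3⟩
  · rintro (h1 | h1)
    · exact h1.1
    · exact h1.1

/-- The weight of all open sets for which the hull of `A` is `K`. -/
theorem sum_hull_eq {R : Type*} [CommSemiring R] (a b : E → V) (op cl : E → R)
    (A K : Finset V) :
    ∑ om ∈ univ.filter (fun om : Finset E => hull a b om A = K),
        (∏ e ∈ om, op e) * ∏ e ∈ omᶜ, cl e
      = insH a b op cl A K * (∏ e ∈ bdE a b K, cl e) * ∏ e ∈ outE a b K, (op e + cl e) := by
  classical
  rw [insH, Finset.prod_add, mul_assoc, Finset.mul_sum, Finset.sum_mul_sum]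
  rw [← Finset.sum_product']
  refine Finset.sum_bij' (fun om _ => (om ∩ inE a b K, om ∩ outE a b K))
    (fun p _ => p.1 ∪ p.2) ?_ ?_ ?_ ?_ ?_
  · intro om hom
    rw [Finset.mem_filter] at hom
    rw [Finset.mem_product, Finset.mem_filter, Finset.mem_powerset, Finset.mem_powerset]
    exact ⟨⟨Finset.inter_subset_right, hull_inter_in hom.2⟩, Finset.inter_subset_right⟩
  · intro p hp
    rw [Finset.mem_product, Finset.mem_filter, Finset.mem_powerset, Finset.mem_powerset] at hp
    rw [Finset.mem_filter]
    exact ⟨Finset.mem_univ _, hull_union hp.1.2 hp.2⟩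
  · intro om hom
    rw [Finset.mem_filter] at hom
    exact (eq_union_of_hull hom.2).symm
  · rintro ⟨s, t⟩ hp
    rw [Finset.mem_product, Finset.mem_filter, Finset.mem_powerset, Finset.mem_powerset] at hp
    have hs : s ⊆ inE a b K := hp.1.1
    have ht : t ⊆ outE a b K := hp.2
    have hd := disj_in_out a b K
    ext e
    · simp only [Finset.mem_inter, Finset.mem_union]
      have : e ∈ inE a b K → e ∉ outE a b K := fun h => Finset.disjoint_left.1 hd h
      have h1 : e ∈ s → e ∈ inE a b K := fun h => hs h
      have h2 : e ∈ t → e ∈ outE a b K := fun h => ht h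
      tauto
    · simp only [Finset.mem_inter, Finset.mem_union]
      have : e ∈ inE a b K → e ∉ outE a b K := fun h => Finset.disjoint_left.1 hd h
      have h1 : e ∈ s → e ∈ inE a b K := fun h => hs h
      have h2 : e ∈ t → e ∈ outE a b K := fun h => ht h
      tauto
  · intro om hom
    rw [Finset.mem_filter] at hom
    have hu := eq_union_of_hull hom.2
    have hs : om ∩ inE a b K ⊆ inE a b K := Finset.inter_subset_right
    have ht : om ∩ outE a b K ⊆ outE a b K := Finset.inter_subset_right
    have hc : omᶜ = (inE a b K \ (om ∩ inE a b K)) ∪ bdE a b K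
        ∪ (outE a b K \ (om ∩ outE a b K)) := by
      conv_lhs => rw [hu]
      exact compl_union hs ht
    have hd1 : Disjoint (om ∩ inE a b K) (om ∩ outE a b K) :=
      (disj_in_out a b K).mono hs ht
    have hd2 : Disjoint (inE a b K \ (om ∩ inE a b K)) (bdE a b K) :=
      (disj_in_bd a b K).mono_left Finset.sdiff_subset
    have hd3 : Disjoint ((inE a b K \ (om ∩ inE a b K)) ∪ bdE a b K)
        (outE a b K \ (om ∩ outE a b K)) := by
      rw [Finset.disjoint_union_left]
      exact ⟨(disj_in_out a b K).mono Finset.sdiff_subset Finset.sdiff_subset,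
        (disj_bd_out a b K).mono_right Finset.sdiff_subset⟩
    have hp1 : ∏ e ∈ om, op e = (∏ e ∈ om ∩ inE a b K, op e) * ∏ e ∈ om ∩ outE a b K, op e := by
      conv_lhs => rw [hu]
      exact Finset.prod_union hd1
    rw [hc, Finset.prod_union hd3, Finset.prod_union hd2, hp1]
    ring

/-- the decomposition according to the hull of `A`, pointwise in the configuration -/
theorem hull_decomp {R : Type*} [CommSemiring R] (a b : E → V) (op cl : E → R) (A : Finset V)
    (Φ : Finset V → R) :
    ∑ om : Finset E, (∏ e ∈ om, op e) * (∏ e ∈ omᶜ, cl e) * Φ (hull a b om A)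
      = ∑ K : Finset V, insH a b op cl A K * (∏ e ∈ bdE a b K, cl e)
          * (∏ e ∈ outE a b K, (op e + cl e)) * Φ K := by
  classical
  rw [← Finset.sum_fiberwise_of_maps_to (s := (univ : Finset (Finset E)))
    (t := (univ : Finset (Finset V))) (g := fun om => hull a b om A)
    (fun _ _ => Finset.mem_univ _)]
  refine Finset.sum_congr rfl (fun K _ => ?_)
  rw [← sum_hull_eq, Finset.sum_mul]
  refine Finset.sum_congr rfl (fun om hom => ?_)
  rw [(Finset.mem_filter.1 hom).2]

theorem insH_eq_zero {R : Type*} [CommSemiring R] (a b : E → V) (op cl : E → R)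
    {A K : Finset V} (h : ¬ A ⊆ K) : insH a b op cl A K = 0 := by
  classical
  rw [insH]
  apply Finset.sum_eq_zero
  intro om hom
  rw [Finset.mem_filter] at hom
  exact absurd (hom.2 ▸ subset_hull A) h

/-- `insH` depends only on the weights of the edges inside `K` -/
theorem insH_congr {R : Type*} [CommSemiring R] (a b : E → V) {op cl op' cl' : E → R}
    {A K : Finset V} (h1 : ∀ e ∈ inE a b K, op e = op' e) (h2 : ∀ e ∈ inE a b K, cl e = cl' e) :
    insH a b op cl A K = insH a b op' cl' A K := by
  classical
  rw [insH, insH]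
  refine Finset.sum_congr rfl fun om hom => ?_
  rw [Finset.mem_filter, Finset.mem_powerset] at hom
  rw [Finset.prod_congr rfl fun e he => h1 e (hom.1 he),
    Finset.prod_congr rfl fun e he => h2 e (Finset.sdiff_subset he)]

end Vale.Agent.P159.TM.H682
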