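import Vale.Agent.P159.TM.H682.Sign
import Vale.Agent.P159.TM.H131.Bridge

/-!
Row E3: one copy, the outside of the explored clusters is a mixture of models with pins at zero,
hence its second moments are bounded by those of the model with zero boundary values.
-/

open Finset MeasureTheory
open scoped ENNReal

set_option linter.unusedSectionVars false
set_option linter.unusedDecidableInType false

namespace Vale.Agent.P159.TM.H682

open Vale.Agent.P159.TM.H60 Vale.Agent.P159.TM.H131 Vale.Agent.P159.H353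

section glue
variable {V : Type*} [Fintype V] [DecidableEq V]

/-- gluing of two height functions -/
def gl (K : Finset V) (x : {v // v ∈ K} → ℤ) (y : {v // v ∉ K} → ℤ) : V → ℤ :=
  fun v => if h : v ∈ K then x ⟨v, h⟩ else y ⟨v, h⟩

theorem gl_mem {K : Finset V} {x : {v // v ∈ K} → ℤ} {y : {v // v ∉ K} → ℤ} {v : V}
    (h : v ∈ K) : gl K x y v = x ⟨v, h⟩ := by simp [gl, h]

theorem gl_not_mem {K : Finset V} {x : {v // v ∈ K} → ℤ} {y : {v // v ∉ K} → ℤ} {v : V}
    (h : v ∉ K) : gl K x y v = y ⟨v, h⟩ := by simp [gl, h]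

theorem tsum_gl (K : Finset V) (F : (V → ℤ) → ℝ≥0∞) :
    ∑' u, F u = ∑' x, ∑' y, F (gl K x y) := by
  rw [← (Equiv.piEquivPiSubtypeProd (· ∈ K) (fun _ => ℤ)).symm.tsum_eq]
  exact ENNReal.tsum_prod (f := fun x y => F (gl K x y))

theorem tsum_gl_zero (K : Finset V) (F : (V → ℤ) → ℝ≥0∞) :
    ∑' u, (if ∀ v ∈ K, u v = 0 then F u else 0) = ∑' y, F (gl K 0 y) := by
  rw [tsum_gl K]
  rw [tsum_eq_single (0 : {v // v ∈ K} → ℤ)]
  · refine tsum_congr fun y => ?_
    rw [if_pos]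
    intro v hv
    rw [gl_mem hv]
    rfl
  · intro x hx
    rw [ENNReal.tsum_eq_zero]
    intro y
    rw [if_neg]
    intro h
    apply hx
    funext v
    have := h v.1 v.2
    rw [gl_mem v.2] at this
    exact this

end glue

variable {V E : Type*} [Fintype V] [DecidableEq V] [Fintype E] [DecidableEq E]

/-- the weight of the heights: Bessel weights on the edges, site weights -/
noncomputable def Wm (s t : E → V) (a : V → ℤ → ℝ) (J : E → ℝ) (h : V → ℤ) : ℝ :=
  (∏ e, wI (J e) (h (t e) - h (s e))) * ∏ v, a v (h v)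

/-- linear functional of the heights -/
noncomputable def li (g : V → ℝ) (h : V → ℤ) : ℝ := ∑ v, g v * (h v : ℝ)

/-- monotonicity of second moments: couplings are lowered and vertices are pinned -/
def MonoR (s t : E → V) (a : V → ℤ → ℝ) (J : E → ℝ) (A : Finset V) (g : V → ℝ)
    (R : ℝ≥0∞) : Prop :=
  ∀ K : Finset V, A ⊆ K → ∀ J' : E → ℝ, (∀ e, 0 ≤ J' e) → (∀ e, J' e ≤ J e) →
    ∑' u : V → ℤ, (if ∀ v ∈ K, u v = 0 then
        ENNReal.ofReal (Wm s t a J' u * (li g u) ^ 2) else 0) ≤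
      R * ∑' u : V → ℤ, (if ∀ v ∈ K, u v = 0 then ENNReal.ofReal (Wm s t a J' u) else 0)

section core
variable {s t : E → V} {a : V → ℤ → ℝ} {J : E → ℝ}

/-- the value at the end point outside `K` of a boundary edge -/
def ov (s t : E → V) (K : Finset V) (u : V → ℤ) (e : E) : ℤ :=
  if s e ∈ K then u (t e) else u (s e)

/-- the value at the end point inside `K` of a boundary edge -/
def iv (s t : E → V) (K : Finset V) (u : V → ℤ) (e : E) : ℤ :=
  if s e ∈ K then u (s e) else u (t e)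

/-- the weight of the outside -/
noncomputable def outW (s t : E → V) (a : V → ℤ → ℝ) (J : E → ℝ) (K : Finset V)
    (u : V → ℤ) : ℝ≥0∞ :=
  (∏ e ∈ outE s t K, ENNReal.ofReal (wI (J e) (u (t e) - u (s e)))) *
    ∏ v ∈ Kᶜ, ENNReal.ofReal (a v (u v))

/-- the constant which comes from the inside if the heights vanish there -/
noncomputable def cin (s t : E → V) (a : V → ℤ → ℝ) (J : E → ℝ) (K : Finset V) : ℝ≥0∞ :=
  (∏ e ∈ inE s t K, ENNReal.ofReal (wI (J e) 0)) * ∏ v ∈ K, ENNReal.ofReal (a v 0)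

theorem ofReal_Wm (ha : ∀ v n, 0 ≤ a v n) {J' : E → ℝ} (hJ' : ∀ e, 0 ≤ J' e) (u : V → ℤ) :
    ENNReal.ofReal (Wm s t a J' u) =
      (∏ e, ENNReal.ofReal (wI (J' e) (u (t e) - u (s e)))) *
        ∏ v, ENNReal.ofReal (a v (u v)) := by
  unfold Wm
  rw [ENNReal.ofReal_mul (Finset.prod_nonneg fun e _ => wI_nonneg (hJ' e) _),
    ENNReal.ofReal_prod_of_nonneg fun e _ => wI_nonneg (hJ' e) _,
    ENNReal.ofReal_prod_of_nonneg fun v _ => ha v _]

theorem prod_three (K : Finset V) (F : E → ℝ≥0∞) :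
    ∏ e, F e = (∏ e ∈ inE s t K, F e) * (∏ e ∈ bdE s t K, F e) * ∏ e ∈ outE s t K, F e := by
  rw [← union_three s t K, Finset.prod_union, Finset.prod_union (disj_in_bd s t K)]
  rw [Finset.disjoint_union_left]
  exact ⟨disj_in_out s t K, disj_bd_out s t K⟩

/-- the model with zero inside `K`: factorisation of the weight -/
theorem Wm_zero (ha : ∀ v n, 0 ≤ a v n) {J' : E → ℝ} (hJ' : ∀ e, 0 ≤ J' e) (K : Finset V)
    (hJJ : ∀ e, e ∉ bdE s t K → J' e = J e) (y : {v // v ∉ K} → ℤ) :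
    ENNReal.ofReal (Wm s t a J' (gl K 0 y)) =
      cin s t a J K * (outW s t a J K (gl K 0 y) *
        ∏ e ∈ bdE s t K, ENNReal.ofReal (wI (J' e) (ov s t K (gl K 0 y) e))) := by
  rw [ofReal_Wm ha hJ', prod_three (s := s) (t := t) K]
  have h1 : ∏ e ∈ inE s t K, ENNReal.ofReal (wI (J' e) (gl K 0 y (t e) - gl K 0 y (s e))) =
      ∏ e ∈ inE s t K, ENNReal.ofReal (wI (J e) 0) := by
    refine Finset.prod_congr rfl fun e he => ?_
    have h2 := mem_inE.1 he
    rw [hJJ e (fun h => Finset.disjoint_left.1 (disj_in_bd s t K) he h), gl_mem h2.1,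
      gl_mem h2.2]
    simp
  have h2 : ∏ e ∈ bdE s t K, ENNReal.ofReal (wI (J' e) (gl K 0 y (t e) - gl K 0 y (s e))) =
      ∏ e ∈ bdE s t K, ENNReal.ofReal (wI (J' e) (ov s t K (gl K 0 y) e)) := by
    refine Finset.prod_congr rfl fun e he => ?_
    have h3 := mem_bdE.1 he
    congr 1
    unfold ov
    by_cases hs : s e ∈ K
    · have ht : t e ∉ K := fun h => h3 ⟨fun _ => h, fun _ => hs⟩
      rw [if_pos hs, gl_mem hs]
      simp
    · have ht : t e ∈ K := by
        by_contra h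
        exact h3 ⟨fun h4 => absurd h4 hs, fun h4 => absurd h4 h⟩
      rw [if_neg hs, gl_mem ht]
      simp only [Pi.zero_apply, zero_sub]
      exact wI_neg _ _
  have h3 : ∏ e ∈ outE s t K, ENNReal.ofReal (wI (J' e) (gl K 0 y (t e) - gl K 0 y (s e))) =
      ∏ e ∈ outE s t K, ENNReal.ofReal (wI (J e) (gl K 0 y (t e) - gl K 0 y (s e))) := by
    refine Finset.prod_congr rfl fun e he => ?_
    rw [hJJ e (fun h => Finset.disjoint_left.1 (disj_bd_out s t K) h he)]
  have h4 : ∏ v, ENNReal.ofReal (a v (gl K 0 y v)) =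
      (∏ v ∈ K, ENNReal.ofReal (a v 0)) * ∏ v ∈ Kᶜ, ENNReal.ofReal (a v (gl K 0 y v)) := by
    rw [← Finset.prod_mul_prod_compl K]
    congr 1
    refine Finset.prod_congr rfl fun v hv => ?_
    rw [gl_mem hv]
    rfl
  rw [h1, h2, h3, h4]
  unfold cin outW
  ring

theorem cin_ne_zero (hJ : ∀ e, 0 ≤ J e) (ha0 : ∀ v, 0 < a v 0) (K : Finset V) :
    cin s t a J K ≠ 0 := by
  unfold cin
  refine mul_ne_zero ?_ ?_
  · refine Finset.prod_ne_zero_iff.2 fun e _ => ?_
    rw [Ne, ENNReal.ofReal_eq_zero, not_le]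
    exact wI_zero_pos (hJ e)
  · refine Finset.prod_ne_zero_iff.2 fun v _ => ?_
    rw [Ne, ENNReal.ofReal_eq_zero, not_le]
    exact ha0 v

theorem cin_ne_top (K : Finset V) : cin s t a J K ≠ ∞ := by
  unfold cin
  refine ENNReal.mul_ne_top ?_ ?_
  · exact ENNReal.prod_ne_top fun e _ => ENNReal.ofReal_ne_top
  · exact ENNReal.prod_ne_top fun v _ => ENNReal.ofReal_ne_top

theorem li_gl (g : V → ℝ) (K : Finset V) (x : {v // v ∈ K} → ℤ) (y : {v // v ∉ K} → ℤ) :
    li (cutG g K) (gl K x y) = li g (gl K 0 y) := by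
  unfold li cutG
  refine Finset.sum_congr rfl fun v _ => ?_
  by_cases hv : v ∈ K
  · rw [if_pos hv, gl_mem (x := (0 : {v // v ∈ K} → ℤ)) hv]
    simp
  · rw [if_neg hv, gl_not_mem hv, gl_not_mem hv]

/-- the core inequality with fixed pins -/
theorem core (hJ : ∀ e, 0 ≤ J e) (ha : ∀ v n, 0 ≤ a v n) (ha0 : ∀ v, 0 < a v 0)
    {A : Finset V} {g : V → ℝ} {R : ℝ≥0∞} (hm : MonoR s t a J A g R) {K : Finset V}
    (hK : A ⊆ K) {c : E → ℝ} (hc0 : ∀ e, 0 ≤ c e) (hc1 : ∀ e, c e ≤ J e) :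
    ∑' y, (outW s t a J K (gl K 0 y) * ENNReal.ofReal ((li g (gl K 0 y)) ^ 2)) *
        ∏ e ∈ bdE s t K, ENNReal.ofReal (wI (c e) (ov s t K (gl K 0 y) e)) ≤
      ∑' y, (R * outW s t a J K (gl K 0 y)) *
        ∏ e ∈ bdE s t K, ENNReal.ofReal (wI (c e) (ov s t K (gl K 0 y) e)) := by
  classical
  set J' : E → ℝ := fun e => if e ∈ bdE s t K then c e else J e with hJ'd
  have hJ' : ∀ e, 0 ≤ J' e := by
    intro e
    simp only [hJ'd]
    split_ifs
    · exact hc0 e
    · exact hJ e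
  have hJ'le : ∀ e, J' e ≤ J e := by
    intro e
    simp only [hJ'd]
    split_ifs
    · exact hc1 e
    · exact le_rfl
  have hJJ : ∀ e, e ∉ bdE s t K → J' e = J e := fun e he => by simp only [hJ'd, if_neg he]
  have h1 := hm K hK J' hJ' hJ'le
  rw [tsum_gl_zero K (fun u => ENNReal.ofReal (Wm s t a J' u * (li g u) ^ 2)),
    tsum_gl_zero K (fun u => ENNReal.ofReal (Wm s t a J' u))] at h1
  have hW0 : ∀ u, 0 ≤ Wm s t a J' u := fun u => mul_nonneg
    (Finset.prod_nonneg fun e _ => wI_nonneg (hJ' e) _) (Finset.prod_nonneg fun v _ => ha v _)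
  have hbd : ∀ y : {v // v ∉ K} → ℤ,
      ∏ e ∈ bdE s t K, ENNReal.ofReal (wI (J' e) (ov s t K (gl K 0 y) e)) =
      ∏ e ∈ bdE s t K, ENNReal.ofReal (wI (c e) (ov s t K (gl K 0 y) e)) := by
    intro y
    refine Finset.prod_congr rfl fun e he => ?_
    simp only [hJ'd, if_pos he]
  have e1 : ∀ y : {v // v ∉ K} → ℤ,
      ENNReal.ofReal (Wm s t a J' (gl K 0 y) * (li g (gl K 0 y)) ^ 2) =
      cin s t a J K * ((outW s t a J K (gl K 0 y) *
        ENNReal.ofReal ((li g (gl K 0 y)) ^ 2)) *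
        ∏ e ∈ bdE s t K, ENNReal.ofReal (wI (c e) (ov s t K (gl K 0 y) e))) := by
    intro y
    rw [ENNReal.ofReal_mul (hW0 _), Wm_zero ha hJ' K hJJ, hbd]
    ring
  have e2 : ∀ y : {v // v ∉ K} → ℤ, ENNReal.ofReal (Wm s t a J' (gl K 0 y)) =
      cin s t a J K * (outW s t a J K (gl K 0 y) *
        ∏ e ∈ bdE s t K, ENNReal.ofReal (wI (c e) (ov s t K (gl K 0 y) e))) := by
    intro y
    rw [Wm_zero ha hJ' K hJJ, hbd]
  rw [tsum_congr e1, tsum_congr e2, ENNReal.tsum_mul_left, ENNReal.tsum_mul_left,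
    ← mul_assoc, mul_comm R, mul_assoc] at h1
  have h2 := (ENNReal.mul_le_mul_iff_right (cin_ne_zero hJ ha0 K) (cin_ne_top K)).1 h1
  refine h2.trans (le_of_eq ?_)
  rw [← ENNReal.tsum_mul_left]
  refine tsum_congr fun y => ?_
  ring

/-- the single copy system -/
noncomputable def sy (s t : E → V) (a : V → ℤ → ℝ) (J : E → ℝ) (hJ : ∀ e, 0 ≤ J e)
    (ha : ∀ v n, 0 ≤ a v n) (hae : ∀ v n, a v (-n) = a v n) : Sys V E ℤ :=
  one s t (fun e => wI (J e)) (fun e => wI_nonneg (hJ e)) (fun e => wI_neg (J e))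
    (fun e => T1.H897.logC_wI (hJ e)) a ha hae

/-- a closed boundary edge as a mixture of pins -/
noncomputable def pG (b : ℝ) (d m : ℤ) (r : ℝ) : ℝ≥0∞ :=
  if r ∈ Set.Icc (0 : ℝ) 1 then (if d = 0 then Ib b m else ker1 b r d * Ib (b * (1 - r)) m)
    else 0

theorem meas_pG (b : ℝ) (d m : ℤ) : Measurable (pG b d m) := by
  unfold pG
  refine Measurable.ite measurableSet_Icc ?_ measurable_const
  by_cases hd : d = 0
  · simp only [if_pos hd]
    exact measurable_const
  · simp only [if_neg hd]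
    exact meas_pin1 b d m

theorem lint_pG {b : ℝ} (hb : 0 ≤ b) (d m : ℤ) :
    ∫⁻ r, pG b d m r = ENNReal.ofReal (min (wI b (m - d)) (wI b (m + d))) := by
  have h1 : pG b d m = Set.indicator (Set.Icc (0 : ℝ) 1)
      (fun r => if d = 0 then Ib b m else ker1 b r d * Ib (b * (1 - r)) m) := by
    funext r
    unfold pG Set.indicator
    congr
  rw [h1, lintegral_indicator measurableSet_Icc]
  by_cases hd : d = 0
  · simp only [if_pos hd]
    rw [lintegral_const, Measure.restrict_apply_univ, Real.volume_Icc, hd, Ib_eq hb]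
    simp
  · simp only [if_neg hd]
    rw [closed1_wI hb d m hd]

/-- the parameter of the pin -/
noncomputable def pc (b : ℝ) (d : ℤ) (r : ℝ) : ℝ := if d = 0 then b else b * (1 - r)

theorem pc_nonneg {b : ℝ} (hb : 0 ≤ b) (d : ℤ) {r : ℝ} (hr : r ∈ Set.Icc (0 : ℝ) 1) :
    0 ≤ pc b d r := by
  unfold pc
  split_ifs
  · exact hb
  · exact mul_nonneg hb (by linarith [hr.2])

theorem pc_le {b : ℝ} (hb : 0 ≤ b) (d : ℤ) {r : ℝ} (hr : r ∈ Set.Icc (0 : ℝ) 1) :
    pc b d r ≤ b := by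
  unfold pc
  split_ifs
  · exact le_rfl
  · nlinarith [hr.1, hr.2]

/-- the constant of the pin -/
noncomputable def pk (b : ℝ) (d : ℤ) (r : ℝ) : ℝ≥0∞ := if d = 0 then 1 else ker1 b r d

theorem pG_eq {b : ℝ} (hb : 0 ≤ b) (d m : ℤ) {r : ℝ} (hr : r ∈ Set.Icc (0 : ℝ) 1) :
    pG b d m r = pk b d r * ENNReal.ofReal (wI (pc b d r) m) := by
  unfold pG pk
  rw [if_pos hr, ← Ib_eq (pc_nonneg hb d hr)]
  unfold pc
  split_ifs
  · rw [one_mul]
  · rfl

/-- **The outside for given heights inside.** -/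
theorem out_fix (hJ : ∀ e, 0 ≤ J e) (ha : ∀ v n, 0 ≤ a v n) (ha0 : ∀ v, 0 < a v 0)
    {A : Finset V} {g : V → ℝ} {R : ℝ≥0∞} (hm : MonoR s t a J A g R) {K : Finset V}
    (hK : A ⊆ K) (x : {v // v ∈ K} → ℤ) :
    ∑' y, (outW s t a J K (gl K 0 y) * ENNReal.ofReal ((li g (gl K 0 y)) ^ 2)) *
        ∏ e ∈ bdE s t K, ENNReal.ofReal (min
          (wI (J e) (ov s t K (gl K x y) e - iv s t K (gl K x y) e))
          (wI (J e) (ov s t K (gl K x y) e + iv s t K (gl K x y) e))) ≤
      ∑' y, (R * outW s t a J K (gl K 0 y)) *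
        ∏ e ∈ bdE s t K, ENNReal.ofReal (min
          (wI (J e) (ov s t K (gl K x y) e - iv s t K (gl K x y) e))
          (wI (J e) (ov s t K (gl K x y) e + iv s t K (gl K x y) e))) := by
  classical
  set Y := {v // v ∉ K} → ℤ
  -- the inner value does not depend on `y`, the outer value does not depend on `x`
  set I : E → ℤ := fun e => iv s t K (gl K x 0) e with hI
  set O : E → Y → ℤ := fun e y => ov s t K (gl K 0 y) e with hO
  have hi : ∀ y : Y, ∀ e ∈ bdE s t K, iv s t K (gl K x y) e = I e := by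
    intro y e he
    have h3 := mem_bdE.1 he
    simp only [hI, iv]
    by_cases hs : s e ∈ K
    · rw [if_pos hs, if_pos hs, gl_mem hs, gl_mem hs]
    · have ht : t e ∈ K := by
        by_contra h
        exact h3 ⟨fun h4 => absurd h4 hs, fun h4 => absurd h4 h⟩
      rw [if_neg hs, if_neg hs, gl_mem ht, gl_mem ht]
  have ho : ∀ y : Y, ∀ e ∈ bdE s t K, ov s t K (gl K x y) e = O e y := by
    intro y e he
    have h3 := mem_bdE.1 he
    simp only [hO, ov]
    by_cases hs : s e ∈ K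
    · have ht : t e ∉ K := fun h => h3 ⟨fun _ => h, fun _ => hs⟩
      rw [if_pos hs, if_pos hs, gl_not_mem ht, gl_not_mem ht]
    · rw [if_neg hs, if_neg hs, gl_not_mem hs, gl_not_mem hs]
  have hbd : ∀ y : Y, ∏ e ∈ bdE s t K, ENNReal.ofReal (min
          (wI (J e) (ov s t K (gl K x y) e - iv s t K (gl K x y) e))
          (wI (J e) (ov s t K (gl K x y) e + iv s t K (gl K x y) e))) =
        ∏ e ∈ bdE s t K, ∫⁻ r, pG (J e) (I e) (O e y) r := by
    intro y
    refine Finset.prod_congr rfl fun e he => ?_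
    rw [hi y e he, ho y e he, lint_pG (hJ e)]
  simp only [hbd]
  have := mix (bdE s t K) (fun _ => (volume : Measure ℝ))
    (fun e r (y : Y) => pG (J e) (I e) (O e y) r)
    (fun e y => meas_pG (J e) (I e) (O e y))
    (fun y => outW s t a J K (gl K 0 y) * ENNReal.ofReal ((li g (gl K 0 y)) ^ 2))
    (fun y => R * outW s t a J K (gl K 0 y)) 1 (fun _ => 0) ?_
  · rw [one_mul] at this
    exact this
  intro ω
  rw [one_mul]
  by_cases hω : ∀ e ∈ bdE s t K, ω e ∈ Set.Icc (0 : ℝ) 1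
  · set c : E → ℝ := fun e => if e ∈ bdE s t K then pc (J e) (I e) (ω e) else J e with hcd
    have hc0 : ∀ e, 0 ≤ c e := by
      intro e
      simp only [hcd]
      split_ifs with h
      · exact pc_nonneg (hJ e) _ (hω e h)
      · exact hJ e
    have hc1 : ∀ e, c e ≤ J e := by
      intro e
      simp only [hcd]
      split_ifs with h
      · exact pc_le (hJ e) _ (hω e h)
      · exact le_rfl
    have hp : ∀ y : Y, ∏ e ∈ bdE s t K, pG (J e) (I e) (O e y) (ω e) =
        (∏ e ∈ bdE s t K, pk (J e) (I e) (ω e)) *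
          ∏ e ∈ bdE s t K, ENNReal.ofReal (wI (c e) (ov s t K (gl K 0 y) e)) := by
      intro y
      rw [← Finset.prod_mul_distrib]
      refine Finset.prod_congr rfl fun e he => ?_
      rw [pG_eq (hJ e) _ _ (hω e he)]
      simp only [hcd, if_pos he, hO]
    simp only [hp]
    have h1 := core hJ ha ha0 hm hK hc0 hc1
    have h2 := mul_le_mul_right h1 (∏ e ∈ bdE s t K, pk (J e) (I e) (ω e))
    rw [← ENNReal.tsum_mul_left, ← ENNReal.tsum_mul_left] at h2
    refine le_trans (le_of_eq (tsum_congr fun y => ?_)) (h2.trans (le_of_eq (tsum_congr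
      fun y => ?_)))
    · ring
    · ring
  · push Not at hω
    obtain ⟨e, he, hne⟩ := hω
    have hz : ∀ y : Y, ∏ e ∈ bdE s t K, pG (J e) (I e) (O e y) (ω e) = 0 := by
      intro y
      refine Finset.prod_eq_zero he ?_
      unfold pG
      rw [if_neg hne]
    simp [hz]

end core

end Vale.Agent.P159.TM.H682
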