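import Vale.Agent.P159.TM.H60.FK
import Vale.Agent.P159.TM.H682.Hull

/-!
Row E3: sign symmetry of the open clusters and the resulting formula for the second moment of a
linear functional of `d`, split into the clusters which meet a given set and the rest.
-/

open Finset

set_option linter.unusedSectionVars false
set_option linter.unusedDecidableInType false

namespace Vale.Agent.P159.TM.H682

open Vale.Agent.P159.TM.H60

variable {V E S : Type*} [Fintype V] [DecidableEq V] [Fintype E] [DecidableEq E]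

section
variable (σ : Sys V E S)

/-- the product of `d` at two vertices of different clusters averages to zero -/
theorem tsum_cross {om : Finset E} {u v : V} (huv : ¬ Conn σ.s σ.t om u v) :
    ∑' x, σ.wt om x * ((σ.d (x u) : ℝ) * (σ.d (x v) : ℝ)) = 0 := by
  set K := clus σ.s σ.t om u with hKd
  have hK : Disjoint om (bdE σ.s σ.t K) := clus_no_bd rfl
  have hu : u ∈ K := self_mem_clus u
  have hv : v ∉ K := fun h => huv (mem_clus.1 h)
  have h1 : ∑' x, σ.wt om x * ((σ.d (x u) : ℝ) * (σ.d (x v) : ℝ)) =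
      ∑' x, σ.wt om (σ.flip K x) * ((σ.d (σ.flip K x u) : ℝ) * (σ.d (σ.flip K x v) : ℝ)) :=
    (Equiv.tsum_eq (σ.flipE K)
      (fun x => σ.wt om x * ((σ.d (x u) : ℝ) * (σ.d (x v) : ℝ)))).symm
  have h2 : ∀ x : V → S, σ.wt om (σ.flip K x) *
      ((σ.d (σ.flip K x u) : ℝ) * (σ.d (σ.flip K x v) : ℝ)) =
      - (σ.wt om x * ((σ.d (x u) : ℝ) * (σ.d (x v) : ℝ))) := by
    intro x
    rw [σ.wt_flip hK, σ.flip_mem hu, σ.flip_not_mem hv, σ.d_sw]
    push_cast
    ring
  rw [tsum_congr h2, tsum_neg] at h1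
  linarith

theorem wt_mul_conn {om : Finset E} (x : V → S) {u v : V} (huv : Conn σ.s σ.t om u v) :
    σ.wt om x * ((σ.d (x u) : ℝ) * (σ.d (x v) : ℝ)) =
      σ.wt om x * (|(σ.d (x u) : ℝ)| * |(σ.d (x v) : ℝ)|) := by
  by_cases hw : σ.wt om x = 0
  · rw [hw]; ring
  · rw [← abs_mul]
    rcases σ.sign_conn hw huv with rfl | h1
    · rw [abs_mul_self]
    · have : (0 : ℝ) < (σ.d (x u) : ℝ) * (σ.d (x v) : ℝ) := by exact_mod_cast h1
      rw [abs_of_pos this]

/-- linear functional of `d` -/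
noncomputable def lin (g : V → ℝ) (x : V → S) : ℝ := ∑ v, g v * (σ.d (x v) : ℝ)

theorem lin_sq (g : V → ℝ) (x : V → S) :
    (lin σ g x) ^ 2 = ∑ u, ∑ v, g u * g v * ((σ.d (x u) : ℝ) * (σ.d (x v) : ℝ)) := by
  unfold lin
  rw [sq, Finset.sum_mul_sum]
  refine Finset.sum_congr rfl fun x _ => Finset.sum_congr rfl fun y _ => ?_
  ring

/-- the hypothesis on second moments -/
def Mom : Prop := ∀ u v : V,
  Summable fun x : V → S => σ.tot x * (|(σ.d (x u) : ℝ)| * |(σ.d (x v) : ℝ)|)

variable {σ}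

theorem Mom.wt_abs (hs : Mom σ) (om : Finset E) (u v : V) :
    Summable fun x : V → S => σ.wt om x * (|(σ.d (x u) : ℝ)| * |(σ.d (x v) : ℝ)|) := by
  refine Summable.of_nonneg_of_le (fun x => ?_) (fun x => ?_) (hs u v)
  · exact mul_nonneg (σ.wt_nonneg om x) (mul_nonneg (abs_nonneg _) (abs_nonneg _))
  · exact mul_le_mul_of_nonneg_right (σ.wt_le om x)
      (mul_nonneg (abs_nonneg _) (abs_nonneg _))

theorem Mom.wt_mul (hs : Mom σ) (om : Finset E) (u v : V) :
    Summable fun x : V → S => σ.wt om x * ((σ.d (x u) : ℝ) * (σ.d (x v) : ℝ)) := by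
  refine Summable.of_norm_bounded (hs.wt_abs om u v) fun x => ?_
  rw [Real.norm_eq_abs, abs_mul, abs_mul, abs_of_nonneg (σ.wt_nonneg om x)]

open Classical in
/-- **Second moment of a linear functional in terms of the clusters.** -/
theorem tsum_lin_sq (hs : Mom σ) (om : Finset E) (g : V → ℝ) :
    ∑' x, σ.wt om x * (lin σ g x) ^ 2 =
      ∑' x, σ.wt om x * ∑ u, ∑ v, if Conn σ.s σ.t om u v then
        g u * g v * (|(σ.d (x u) : ℝ)| * |(σ.d (x v) : ℝ)|) else 0 := by
  have e1 : ∀ x : V → S, σ.wt om x * (lin σ g x) ^ 2 =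
      ∑ u, ∑ v, g u * g v * (σ.wt om x * ((σ.d (x u) : ℝ) * (σ.d (x v) : ℝ))) := by
    intro x
    rw [lin_sq, Finset.mul_sum]
    refine Finset.sum_congr rfl fun u _ => ?_
    rw [Finset.mul_sum]
    refine Finset.sum_congr rfl fun v _ => ?_
    ring
  have e2 : ∀ x : V → S, (σ.wt om x * ∑ u, ∑ v, if Conn σ.s σ.t om u v then
        g u * g v * (|(σ.d (x u) : ℝ)| * |(σ.d (x v) : ℝ)|) else 0) =
      ∑ u, ∑ v, if Conn σ.s σ.t om u v then
        g u * g v * (σ.wt om x * (|(σ.d (x u) : ℝ)| * |(σ.d (x v) : ℝ)|)) else 0 := by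
    intro x
    rw [Finset.mul_sum]
    refine Finset.sum_congr rfl fun u _ => ?_
    rw [Finset.mul_sum]
    refine Finset.sum_congr rfl fun v _ => ?_
    split_ifs
    · ring
    · ring
  rw [tsum_congr e1, tsum_congr e2]
  have s1 : ∀ u v : V, Summable fun x : V → S =>
      g u * g v * (σ.wt om x * ((σ.d (x u) : ℝ) * (σ.d (x v) : ℝ))) :=
    fun u v => (hs.wt_mul om u v).mul_left _
  have s2 : ∀ u v : V, Summable fun x : V → S => (if Conn σ.s σ.t om u v then
      g u * g v * (σ.wt om x * (|(σ.d (x u) : ℝ)| * |(σ.d (x v) : ℝ)|)) else 0) := by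
    intro u v
    split_ifs
    · exact (hs.wt_abs om u v).mul_left _
    · exact summable_zero
  rw [Summable.tsum_finsetSum fun u _ => summable_sum fun v _ => s1 u v,
    Summable.tsum_finsetSum fun u _ => summable_sum fun v _ => s2 u v]
  refine Finset.sum_congr rfl fun u _ => ?_
  rw [Summable.tsum_finsetSum fun v _ => s1 u v, Summable.tsum_finsetSum fun v _ => s2 u v]
  refine Finset.sum_congr rfl fun v _ => ?_
  by_cases huv : Conn σ.s σ.t om u v
  · refine tsum_congr fun x => ?_
    rw [if_pos huv, wt_mul_conn σ x huv]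
  · rw [tsum_mul_left, tsum_cross σ huv, mul_zero]
    simp only [if_neg huv, tsum_zero]

variable (σ)

/-- sum of the squared masses of the clusters which meet `A` (each cluster counted once) -/
noncomputable def Xi (g : V → ℝ) (A : Finset V) (om : Finset E) (x : V → S) : ℝ :=
  ∑ u ∈ hull σ.s σ.t om A, g u * |(σ.d (x u) : ℝ)| *
    ∑ v ∈ clus σ.s σ.t om u, g v * |(σ.d (x v) : ℝ)|

theorem Xi_nonneg {g : V → ℝ} (hg : ∀ v, 0 ≤ g v) (A : Finset V) (om : Finset E) (x : V → S) :
    0 ≤ Xi σ g A om x := by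
  unfold Xi
  refine Finset.sum_nonneg fun u _ => mul_nonneg (mul_nonneg (hg u) (abs_nonneg _)) ?_
  exact Finset.sum_nonneg fun v _ => mul_nonneg (hg v) (abs_nonneg _)

/-- **Subadditivity in the set.** -/
theorem Xi_le_sum {ι : Type*} {g : V → ℝ} (hg : ∀ v, 0 ≤ g v) {A : Finset V} (T : Finset ι)
    (B : ι → Finset V) (hA : ∀ u ∈ A, ∃ i ∈ T, u ∈ B i) (om : Finset E) (x : V → S) :
    Xi σ g A om x ≤ ∑ i ∈ T, Xi σ g (B i) om x := by
  classical
  unfold Xi
  set F : V → ℝ := fun u => g u * |(σ.d (x u) : ℝ)| *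
    ∑ v ∈ clus σ.s σ.t om u, g v * |(σ.d (x v) : ℝ)| with hF
  have hF0 : ∀ u, 0 ≤ F u := fun u => mul_nonneg (mul_nonneg (hg u) (abs_nonneg _))
    (Finset.sum_nonneg fun v _ => mul_nonneg (hg v) (abs_nonneg _))
  have hsub : hull σ.s σ.t om A ⊆ T.biUnion fun i => hull σ.s σ.t om (B i) := by
    intro u hu
    rw [mem_hull] at hu
    obtain ⟨w, hw, h1⟩ := hu
    obtain ⟨i, hi, h2⟩ := hA w hw
    exact Finset.mem_biUnion.2 ⟨i, hi, mem_hull.2 ⟨w, h2, h1⟩⟩
  calc ∑ u ∈ hull σ.s σ.t om A, F u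
      ≤ ∑ u ∈ T.biUnion (fun i => hull σ.s σ.t om (B i)), F u :=
        Finset.sum_le_sum_of_subset_of_nonneg hsub fun u _ _ => hF0 u
    _ ≤ ∑ i ∈ T, ∑ u ∈ hull σ.s σ.t om (B i), F u := by
        induction T using Finset.induction_on with
        | empty => simp
        | insert i T hi ih =>
          rw [Finset.biUnion_insert, Finset.sum_insert hi]
          have h3 := Finset.sum_union_inter (s₁ := hull σ.s σ.t om (B i))
            (s₂ := T.biUnion fun i => hull σ.s σ.t om (B i)) (f := F)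
          have h4 : 0 ≤ ∑ u ∈ hull σ.s σ.t om (B i) ∩ T.biUnion
            (fun i => hull σ.s σ.t om (B i)), F u := Finset.sum_nonneg fun u _ => hF0 u
          have ih' : ∑ u ∈ T.biUnion (fun i => hull σ.s σ.t om (B i)), F u ≤
              ∑ i ∈ T, ∑ u ∈ hull σ.s σ.t om (B i), F u := by
            clear hsub hA h3 h4 ih
            induction T using Finset.induction_on with
            | empty => simp
            | insert j T' hj ih2 =>
              rw [Finset.biUnion_insert, Finset.sum_insert hj]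
              have h5 := Finset.sum_union_inter (s₁ := hull σ.s σ.t om (B j))
                (s₂ := T'.biUnion fun i => hull σ.s σ.t om (B i)) (f := F)
              have h6 : 0 ≤ ∑ u ∈ hull σ.s σ.t om (B j) ∩ T'.biUnion
                (fun i => hull σ.s σ.t om (B i)), F u := Finset.sum_nonneg fun u _ => hF0 u
              have h7 := ih2 (fun h => hi (Finset.mem_insert_of_mem h))
              linarith
          linarith

/-- the functional restricted to the complement of a set -/
noncomputable def cutG (g : V → ℝ) (K : Finset V) (v : V) : ℝ := if v ∈ K then 0 else g v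

open Classical in
theorem split_pt (g : V → ℝ) (A : Finset V) (om : Finset E) (x : V → S) :
    (∑ u, ∑ v, if Conn σ.s σ.t om u v then
        g u * g v * (|(σ.d (x u) : ℝ)| * |(σ.d (x v) : ℝ)|) else 0) =
      Xi σ g A om x + ∑ u, ∑ v, if Conn σ.s σ.t om u v then
        cutG g (hull σ.s σ.t om A) u * cutG g (hull σ.s σ.t om A) v *
          (|(σ.d (x u) : ℝ)| * |(σ.d (x v) : ℝ)|) else 0 := by
  set D : V → ℝ := fun u => |(σ.d (x u) : ℝ)| with hD
  have h1 : Xi σ g A om x = ∑ u, ∑ v, if Conn σ.s σ.t om u v then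
      (if u ∈ hull σ.s σ.t om A then g u * g v * (D u * D v) else 0) else 0 := by
    unfold Xi
    rw [← Finset.sum_filter_add_sum_filter_not (univ : Finset V)
      (fun u => u ∈ hull σ.s σ.t om A) (fun u => ∑ v, if Conn σ.s σ.t om u v then
      (if u ∈ hull σ.s σ.t om A then g u * g v * (D u * D v) else 0) else 0)]
    have z : ∑ u ∈ univ.filter (fun u => ¬ u ∈ hull σ.s σ.t om A),
        (∑ v, if Conn σ.s σ.t om u v then
      (if u ∈ hull σ.s σ.t om A then g u * g v * (D u * D v) else 0) else 0)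
        = 0 := by
      refine Finset.sum_eq_zero fun u hu => Finset.sum_eq_zero fun v _ => ?_
      rw [Finset.mem_filter] at hu
      rw [if_neg hu.2]
      simp
    rw [z, add_zero]
    have hf : univ.filter (fun u => u ∈ hull σ.s σ.t om A) = hull σ.s σ.t om A := by
      ext u; simp
    rw [hf]
    refine Finset.sum_congr rfl fun u hu => ?_
    rw [Finset.mul_sum]
    have hc : clus σ.s σ.t om u = univ.filter (fun v => Conn σ.s σ.t om u v) := by
      ext v
      rw [mem_clus, Finset.mem_filter]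
      exact ⟨fun h2 => ⟨Finset.mem_univ _, h2⟩, fun h2 => h2.2⟩
    rw [hc, Finset.sum_filter]
    refine Finset.sum_congr rfl fun v _ => ?_
    rw [if_pos hu]
    split_ifs
    · simp only [hD]; ring
    · rfl
  rw [h1, ← Finset.sum_add_distrib]
  refine Finset.sum_congr rfl fun u _ => ?_
  rw [← Finset.sum_add_distrib]
  refine Finset.sum_congr rfl fun v _ => ?_
  by_cases huv : Conn σ.s σ.t om u v
  · rw [if_pos huv, if_pos huv, if_pos huv]
    have h2 : u ∈ hull σ.s σ.t om A ↔ v ∈ hull σ.s σ.t om A := hull_conn huv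
    unfold cutG
    by_cases hx : u ∈ hull σ.s σ.t om A
    · rw [if_pos hx, if_pos hx, if_pos (h2.1 hx)]; ring
    · rw [if_neg hx, if_neg hx, if_neg (fun h3 => hx (h2.2 h3))]; ring
  · rw [if_neg huv, if_neg huv, if_neg huv]; ring

variable {σ}

theorem Mom.Xi (hs : Mom σ) (g : V → ℝ) (A : Finset V) (om : Finset E) :
    Summable fun x : V → S => σ.wt om x * Xi σ g A om x := by
  unfold H682.Xi
  have e : ∀ x : V → S, (σ.wt om x * ∑ u ∈ hull σ.s σ.t om A, g u * |(σ.d (x u) : ℝ)| *
      ∑ v ∈ clus σ.s σ.t om u, g v * |(σ.d (x v) : ℝ)|) = ∑ u ∈ hull σ.s σ.t om A,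
        ∑ v ∈ clus σ.s σ.t om u,
          g u * g v * (σ.wt om x * (|(σ.d (x u) : ℝ)| * |(σ.d (x v) : ℝ)|)) := by
    intro x
    rw [Finset.mul_sum]
    refine Finset.sum_congr rfl fun u _ => ?_
    rw [Finset.mul_sum, Finset.mul_sum]
    refine Finset.sum_congr rfl fun v _ => ?_
    ring
  simp only [e]
  exact summable_sum fun u _ => summable_sum fun v _ => (hs.wt_abs om u v).mul_left _

theorem Mom.lin_sq (hs : Mom σ) (g : V → ℝ) (om : Finset E) :
    Summable fun x : V → S => σ.wt om x * (lin σ g x) ^ 2 := by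
  have e1 : ∀ x : V → S, σ.wt om x * (lin σ g x) ^ 2 =
      ∑ u, ∑ v, g u * g v * (σ.wt om x * ((σ.d (x u) : ℝ) * (σ.d (x v) : ℝ))) := by
    intro x
    rw [H682.lin_sq, Finset.mul_sum]
    refine Finset.sum_congr rfl fun u _ => ?_
    rw [Finset.mul_sum]
    refine Finset.sum_congr rfl fun v _ => ?_
    ring
  simp only [e1]
  exact summable_sum fun u _ => summable_sum fun v _ => (hs.wt_mul om u v).mul_left _

/-- **The second moment splits into the clusters meeting `A` and the rest.** -/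
theorem tsum_split (hs : Mom σ) (om : Finset E) (g : V → ℝ) (A : Finset V) :
    ∑' x, σ.wt om x * (lin σ g x) ^ 2 =
      ∑' x, σ.wt om x * Xi σ g A om x +
        ∑' x, σ.wt om x * (lin σ (cutG g (hull σ.s σ.t om A)) x) ^ 2 := by
  classical
  rw [tsum_lin_sq hs, tsum_lin_sq hs om (cutG g (hull σ.s σ.t om A))]
  have s2 : Summable fun x : V → S => σ.wt om x * ∑ u, ∑ v, if Conn σ.s σ.t om u v then
        cutG g (hull σ.s σ.t om A) u * cutG g (hull σ.s σ.t om A) v *
          (|(σ.d (x u) : ℝ)| * |(σ.d (x v) : ℝ)|) else 0 := by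
    have e : ∀ x : V → S, (σ.wt om x * ∑ u, ∑ v, if Conn σ.s σ.t om u v then
        cutG g (hull σ.s σ.t om A) u * cutG g (hull σ.s σ.t om A) v *
          (|(σ.d (x u) : ℝ)| * |(σ.d (x v) : ℝ)|) else 0) =
        ∑ u, ∑ v, if Conn σ.s σ.t om u v then
        cutG g (hull σ.s σ.t om A) u * cutG g (hull σ.s σ.t om A) v *
          (σ.wt om x * (|(σ.d (x u) : ℝ)| * |(σ.d (x v) : ℝ)|)) else 0 := by
      intro x
      rw [Finset.mul_sum]
      refine Finset.sum_congr rfl fun u _ => ?_
      rw [Finset.mul_sum]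
      refine Finset.sum_congr rfl fun v _ => ?_
      split_ifs
      · ring
      · ring
    simp only [e]
    refine summable_sum fun u _ => summable_sum fun v _ => ?_
    split_ifs
    · exact (hs.wt_abs om u v).mul_left _
    · exact summable_zero
  rw [← (hs.Xi g A om).tsum_add s2]
  refine tsum_congr fun x => ?_
  rw [split_pt σ g A om x, mul_add]

end

end Vale.Agent.P159.TM.H682
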